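import Vale.Agent.P047.Defs

namespace Vale.Agent.P047

open Finset

/-- The level-one Fourier coefficient `E[f(X) X_i]` for `X` uniform on the cube. -/
noncomputable def fourierOne {n : ℕ} (f : (Fin n → Bool) → ℝ) (i : Fin n) : ℝ :=
  (∑ x : Fin n → Bool, f x * sgn (x i)) / 2 ^ n

/-- number of coordinates fixed to `+1` -/
def posCount {n : ℕ} (ρ : Fin n → Option Bool) : ℕ :=
  (univ.filter (fun i => ρ i = some true)).card

/-- number of coordinates fixed to `-1` -/
def negCount {n : ℕ} (ρ : Fin n → Option Bool) : ℕ :=
  (univ.filter (fun i => ρ i = some false)).card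

/-- number of free coordinates -/
def freeCount {n : ℕ} (ρ : Fin n → Option Bool) : ℕ :=
  (univ.filter (fun i => ρ i = none)).card

lemma sum_prod_bool {n : ℕ} (g : Fin n → Bool → ℝ) :
    ∑ x : Fin n → Bool, ∏ i, g i (x i) = ∏ i, (g i true + g i false) := by
  have h := (Finset.prod_univ_sum (fun _ : Fin n => (Finset.univ : Finset Bool)) g)
  rw [Fintype.piFinset_univ] at h
  rw [← h]
  apply Finset.prod_congr rfl
  intro i _
  simp

/-- local factor of a subcube -/
def locFac (o : Option Bool) (g : Bool → ℝ) : ℝ :=
  match o with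
  | none => g true + g false
  | some b => g b

lemma cubeInd_eq_prod {n : ℕ} (ρ : Fin n → Option Bool) (x : Fin n → Bool) :
    cubeInd ρ x = ∏ i, (if ρ i = none ∨ ρ i = some (x i) then (1 : ℝ) else 0) := by
  unfold cubeInd
  rw [Fintype.prod_boole]
  congr

lemma key_sum {n : ℕ} (ρ : Fin n → Option Bool) (g : Fin n → Bool → ℝ) :
    ∑ x : Fin n → Bool, cubeInd ρ x * ∏ i, g i (x i) = ∏ i, locFac (ρ i) (g i) := by
  have h1 : ∀ x : Fin n → Bool, cubeInd ρ x * ∏ i, g i (x i)
      = ∏ i, ((fun (i : Fin n) (b : Bool) =>
          (if ρ i = none ∨ ρ i = some b then (1 : ℝ) else 0) * g i b) i (x i)) := by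
    intro x
    rw [cubeInd_eq_prod, ← Finset.prod_mul_distrib]
  refine (Finset.sum_congr rfl (fun x _ => h1 x)).trans ?_
  refine (sum_prod_bool (fun (i : Fin n) (b : Bool) =>
          (if ρ i = none ∨ ρ i = some b then (1 : ℝ) else 0) * g i b)).trans ?_
  apply Finset.prod_congr rfl
  intro i _
  rcases h : ρ i with _ | b
  · simp [locFac]
  · cases b <;> simp [locFac]

lemma count_add {n : ℕ} (ρ : Fin n → Option Bool) :
    posCount ρ + negCount ρ + freeCount ρ = n := by
  classical
  have h : ∀ i : Fin n, (if ρ i = some true then 1 else 0) + (if ρ i = some false then 1 else 0)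
      + (if ρ i = none then 1 else 0) = (1 : ℕ) := by
    intro i
    rcases h : ρ i with _ | b
    · simp
    · cases b <;> simp
  have h2 : ∑ i : Fin n, ((if ρ i = some true then 1 else 0) + (if ρ i = some false then 1 else 0)
      + (if ρ i = none then 1 else 0) : ℕ) = n := by
    rw [Finset.sum_congr rfl (fun i _ => h i)]; simp
  rw [Finset.sum_add_distrib, Finset.sum_add_distrib] at h2
  simp only [posCount, negCount, freeCount, Finset.card_filter]
  exact h2

lemma codim_eq {n : ℕ} (ρ : Fin n → Option Bool) :
    codim ρ = posCount ρ + negCount ρ := by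
  classical
  have h : ∀ i : Fin n, (if ρ i ≠ none then 1 else 0 : ℕ)
      = (if ρ i = some true then 1 else 0) + (if ρ i = some false then 1 else 0) := by
    intro i
    rcases h : ρ i with _ | b
    · simp
    · cases b <;> simp
  simp only [codim, posCount, negCount, Finset.card_filter]
  rw [← Finset.sum_add_distrib]
  exact Finset.sum_congr rfl (fun i _ => h i)

/-- tilted mass of a subcube -/
lemma tilt_sum {n : ℕ} (ρ : Fin n → Option Bool) (u v : ℝ) :
    ∑ x : Fin n → Bool, cubeInd ρ x * ∏ i, (if x i then u else v)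
      = u ^ posCount ρ * v ^ negCount ρ * (u + v) ^ freeCount ρ := by
  classical
  have := key_sum ρ (fun _ b => if b then u else v)
  rw [this]
  have h : ∀ i : Fin n, locFac (ρ i) (fun b => if b then u else v)
      = (if ρ i = some true then u else 1) * (if ρ i = some false then v else 1)
        * (if ρ i = none then (u + v) else 1) := by
    intro i
    rcases h : ρ i with _ | b
    · simp [locFac]
    · cases b <;> simp [locFac]
  rw [Finset.prod_congr rfl (fun i _ => h i)]
  rw [Finset.prod_mul_distrib, Finset.prod_mul_distrib]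
  simp [posCount, negCount, freeCount, Finset.prod_ite]

/-- sign attached to a coordinate by a partial assignment -/
def epsOf (o : Option Bool) : ℝ :=
  match o with
  | none => 0
  | some b => sgn b

lemma sum_sgn {n : ℕ} (ρ : Fin n → Option Bool) (i : Fin n) :
    ∑ x : Fin n → Bool, cubeInd ρ x * sgn (x i) = epsOf (ρ i) * 2 ^ freeCount ρ := by
  classical
  have h0 : ∀ x : Fin n → Bool, cubeInd ρ x * sgn (x i)
      = cubeInd ρ x * ∏ j, ((fun (j : Fin n) (b : Bool) => if j = i then sgn b else 1) j (x j)) := by
    intro x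
    simp [Finset.prod_ite_eq']
  refine (Finset.sum_congr rfl (fun x _ => h0 x)).trans ?_
  refine (key_sum ρ (fun (j : Fin n) (b : Bool) => if j = i then sgn b else 1)).trans ?_
  rcases h : ρ i with _ | b
  · have : locFac (ρ i) (fun b => if i = i then sgn b else 1) = 0 := by
      simp [h, locFac, sgn]
    rw [Finset.prod_eq_zero (Finset.mem_univ i) this]
    simp [epsOf]
  · have h2 : ∀ j : Fin n, locFac (ρ j) (fun b' => if j = i then sgn b' else 1)
        = (if ρ j = none then 2 else 1) * (if j = i then sgn b else 1) := by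
      intro j
      by_cases hj : j = i
      · subst hj
        simp [h, locFac]
      · rcases h' : ρ j with _ | b'
        · simp [locFac, hj]; norm_num
        · simp [locFac, hj]
    rw [Finset.prod_congr rfl (fun j _ => h2 j)]
    rw [Finset.prod_mul_distrib]
    simp [freeCount, Finset.prod_ite, epsOf, mul_comm]

lemma sum_eps {n : ℕ} (ρ : Fin n → Option Bool) :
    ∑ i, epsOf (ρ i) = (posCount ρ : ℝ) - (negCount ρ : ℝ) := by
  classical
  have h : ∀ i : Fin n, epsOf (ρ i)
      = (if ρ i = some true then (1 : ℝ) else 0) - (if ρ i = some false then (1 : ℝ) else 0) := by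
    intro i
    rcases h : ρ i with _ | b
    · simp [epsOf]
    · cases b <;> simp [epsOf, sgn]
  rw [Finset.sum_congr rfl (fun i _ => h i)]
  rw [Finset.sum_sub_distrib]
  simp [posCount, negCount]

end Vale.Agent.P047
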