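import Vale.Agent.P047.Basic

namespace Vale.Agent.P047

open Finset

/-- The analytic inequality behind the tilting argument. -/
lemma term_bound (a b w : ℕ) (h : a + b ≤ w) :
    ((a : ℝ) - b) / 2 ^ (a + b) ≤ (Real.sqrt w * Real.exp (-(1 / 2))) *
      (Real.exp (1 / Real.sqrt w) ^ a * Real.exp (-(1 / Real.sqrt w)) ^ b /
        (Real.exp (1 / Real.sqrt w) + Real.exp (-(1 / Real.sqrt w))) ^ (a + b)) := by
  set β : ℝ := 1 / Real.sqrt w with hβ
  have hpos : 0 < Real.exp β + Real.exp (-β) := by positivity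
  by_cases hab : a ≤ b
  · have h1 : ((a : ℝ) - b) / 2 ^ (a + b) ≤ 0 := by
      apply div_nonpos_of_nonpos_of_nonneg
      · have : (a : ℝ) ≤ b := by exact_mod_cast hab
        linarith
      · positivity
    have h2 : 0 ≤ (Real.sqrt w * Real.exp (-(1 / 2))) *
      (Real.exp β ^ a * Real.exp (-β) ^ b / (Real.exp β + Real.exp (-β)) ^ (a + b)) := by
      positivity
    linarith
  · rw [not_le] at hab
    have hw1 : 1 ≤ w := by omega
    have hwpos : (0 : ℝ) < w := by exact_mod_cast hw1
    have hsq : 0 < Real.sqrt w := Real.sqrt_pos.mpr hwpos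
    have hβpos : 0 < β := by rw [hβ]; positivity
    have hsqsq : Real.sqrt w * Real.sqrt w = w := Real.mul_self_sqrt hwpos.le
    set s : ℝ := (a : ℝ) - b with hs
    have hspos : 0 < s := by
      have : (b : ℝ) < a := by exact_mod_cast hab
      rw [hs]; linarith
    -- u^a v^b = exp (β s)
    have huv : Real.exp β ^ a * Real.exp (-β) ^ b = Real.exp (β * s) := by
      rw [← Real.exp_nat_mul, ← Real.exp_nat_mul, ← Real.exp_add]
      congr 1
      rw [hs]; ring
    have hcosh : Real.exp β + Real.exp (-β) = 2 * Real.cosh β := by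
      rw [Real.cosh_eq]; ring
    have hc1 : 1 ≤ Real.cosh β := Real.one_le_cosh β
    have hcw : Real.cosh β ^ (a + b) ≤ Real.exp (1 / 2) := by
      calc Real.cosh β ^ (a + b) ≤ Real.cosh β ^ w := pow_le_pow_right₀ hc1 h
        _ ≤ (Real.exp (β ^ 2 / 2)) ^ w :=
            pow_le_pow_left₀ (by linarith) (Real.cosh_le_exp_half_sq β) w
        _ = Real.exp (1 / 2) := by
            rw [← Real.exp_nat_mul]
            congr 1
            rw [hβ]
            field_simp
            nlinarith [hsqsq]
    have hexp : Real.exp 1 * (β * s) ≤ Real.exp (β * s) := by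
      have h1 := Real.add_one_le_exp (β * s - 1)
      have h2 : Real.exp (β * s) = Real.exp 1 * Real.exp (β * s - 1) := by
        rw [← Real.exp_add]; congr 1; ring
      rw [h2]
      apply mul_le_mul_of_nonneg_left _ (Real.exp_pos 1).le
      linarith
    rw [huv, hcosh, mul_pow]
    have hcpos : 0 < Real.cosh β ^ (a + b) := by positivity
    have h2pos : (0 : ℝ) < 2 ^ (a + b) := by positivity
    rw [div_le_iff₀ h2pos]
    have key : s ≤ Real.sqrt w * Real.exp (-(1 / 2)) * (Real.exp (β * s) / Real.cosh β ^ (a + b)) := by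
      have e1 : Real.exp (-(1 / 2)) * Real.exp 1 * Real.exp (-(1/2)) = 1 := by
        rw [← Real.exp_add, ← Real.exp_add]; norm_num
      have e2 : Real.exp (-(1/2)) ≤ 1 / Real.cosh β ^ (a + b) := by
        rw [Real.exp_neg, ← one_div]
        exact one_div_le_one_div_of_le hcpos hcw
      have hβs : Real.sqrt w * β = 1 := by rw [hβ]; field_simp
      calc s = (Real.sqrt w * β) * s * (Real.exp (-(1 / 2)) * Real.exp 1 * Real.exp (-(1/2))) := by
              rw [hβs, e1]; ring
        _ = Real.sqrt w * Real.exp (-(1 / 2)) * ((Real.exp 1 * (β * s)) * Real.exp (-(1/2))) := by ring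
        _ ≤ Real.sqrt w * Real.exp (-(1 / 2)) * (Real.exp (β * s) * (1 / Real.cosh β ^ (a + b))) := by
              apply mul_le_mul_of_nonneg_left _ (by positivity)
              apply mul_le_mul hexp e2 (Real.exp_pos _).le (Real.exp_pos _).le
        _ = Real.sqrt w * Real.exp (-(1 / 2)) * (Real.exp (β * s) / Real.cosh β ^ (a + b)) := by ring
    calc s ≤ Real.sqrt w * Real.exp (-(1 / 2)) * (Real.exp (β * s) / Real.cosh β ^ (a + b)) := key
      _ = Real.sqrt w * Real.exp (-(1 / 2)) *
          (Real.exp (β * s) / (2 ^ (a + b) * Real.cosh β ^ (a + b))) * 2 ^ (a + b) := by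
            field_simp


/-- level-one sum of a combination of subcube indicators -/
lemma sum_fourierOne_rep {n : ℕ} {ι : Type*} [Fintype ι] (h : (Fin n → Bool) → ℝ)
    (ρ : ι → Fin n → Option Bool) (c : ι → ℝ)
    (hrep : ∀ x, h x = ∑ j, c j * cubeInd (ρ j) x) :
    ∑ i, fourierOne h i
      = ∑ j, c j * (((posCount (ρ j) : ℝ) - negCount (ρ j)) / 2 ^ (posCount (ρ j) + negCount (ρ j))) := by
  have h1 : ∀ i : Fin n, fourierOne h i
      = ∑ j, c j * (epsOf (ρ j i) * 2 ^ freeCount (ρ j)) / 2 ^ n := by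
    intro i
    unfold fourierOne
    rw [← Finset.sum_div]
    congr 1
    calc ∑ x : Fin n → Bool, h x * sgn (x i)
        = ∑ x : Fin n → Bool, ∑ j, c j * (cubeInd (ρ j) x * sgn (x i)) := by
          apply Finset.sum_congr rfl
          intro x _
          rw [hrep x, Finset.sum_mul]
          apply Finset.sum_congr rfl
          intro j _
          ring
      _ = ∑ j, ∑ x : Fin n → Bool, c j * (cubeInd (ρ j) x * sgn (x i)) := Finset.sum_comm
      _ = ∑ j, c j * (epsOf (ρ j i) * 2 ^ freeCount (ρ j)) := by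
          apply Finset.sum_congr rfl
          intro j _
          rw [← Finset.mul_sum, sum_sgn]
  rw [Finset.sum_congr rfl (fun i _ => h1 i), Finset.sum_comm]
  apply Finset.sum_congr rfl
  intro j _
  have hn : (2 : ℝ) ^ n = 2 ^ (posCount (ρ j) + negCount (ρ j)) * 2 ^ freeCount (ρ j) := by
    rw [← pow_add, count_add]
  have : ∀ i : Fin n, c j * (epsOf (ρ j i) * 2 ^ freeCount (ρ j)) / 2 ^ n
      = epsOf (ρ j i) * (c j * 2 ^ freeCount (ρ j) / 2 ^ n) := by
    intro i; ring
  rw [Finset.sum_congr rfl (fun i _ => this i), ← Finset.sum_mul, sum_eps, hn]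
  have h2 : (2 : ℝ) ^ freeCount (ρ j) ≠ 0 := by positivity
  have h3 : (2 : ℝ) ^ (posCount (ρ j) + negCount (ρ j)) ≠ 0 := by positivity
  field_simp

/-- total tilted mass bound -/
lemma tilt_mass_le {n : ℕ} {ι : Type*} [Fintype ι] (h : (Fin n → Bool) → ℝ) (hle : ∀ x, h x ≤ 1)
    (ρ : ι → Fin n → Option Bool) (c : ι → ℝ)
    (hrep : ∀ x, h x = ∑ j, c j * cubeInd (ρ j) x) (u v : ℝ) (hu : 0 < u) (hv : 0 < v) :
    ∑ j, c j * (u ^ posCount (ρ j) * v ^ negCount (ρ j) / (u + v) ^ (posCount (ρ j) + negCount (ρ j)))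
      ≤ 1 := by
  have huv : 0 < u + v := by positivity
  have hW : ∀ x : Fin n → Bool, 0 ≤ ∏ i, (if x i then u else v) := by
    intro x
    apply Finset.prod_nonneg
    intro i _
    split_ifs <;> positivity
  have htot : ∑ x : Fin n → Bool, ∏ i, (if x i then u else v) = (u + v) ^ n := by
    have := sum_prod_bool (n := n) (fun _ b => if b then u else v)
    rw [this]
    simp
  have h1 : ∑ x : Fin n → Bool, h x * ∏ i, (if x i then u else v) ≤ (u + v) ^ n := by
    rw [← htot]
    apply Finset.sum_le_sum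
    intro x _
    calc h x * ∏ i, (if x i then u else v) ≤ 1 * ∏ i, (if x i then u else v) :=
          mul_le_mul_of_nonneg_right (hle x) (hW x)
      _ = _ := one_mul _
  have h2 : ∑ x : Fin n → Bool, h x * ∏ i, (if x i then u else v)
      = ∑ j, c j * (u ^ posCount (ρ j) * v ^ negCount (ρ j) * (u + v) ^ freeCount (ρ j)) := by
    calc ∑ x : Fin n → Bool, h x * ∏ i, (if x i then u else v)
        = ∑ x : Fin n → Bool, ∑ j, c j * (cubeInd (ρ j) x * ∏ i, (if x i then u else v)) := by
          apply Finset.sum_congr rfl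
          intro x _
          rw [hrep x, Finset.sum_mul]
          apply Finset.sum_congr rfl
          intro j _
          ring
      _ = ∑ j, ∑ x : Fin n → Bool, c j * (cubeInd (ρ j) x * ∏ i, (if x i then u else v)) :=
          Finset.sum_comm
      _ = _ := by
          apply Finset.sum_congr rfl
          intro j _
          rw [← Finset.mul_sum, tilt_sum]
  rw [h2] at h1
  have h3 : ∑ j, c j * (u ^ posCount (ρ j) * v ^ negCount (ρ j) / (u + v) ^ (posCount (ρ j) + negCount (ρ j)))
      = (∑ j, c j * (u ^ posCount (ρ j) * v ^ negCount (ρ j) * (u + v) ^ freeCount (ρ j))) / (u + v) ^ n := by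
    rw [Finset.sum_div]
    apply Finset.sum_congr rfl
    intro j _
    have hn : (u + v) ^ n = (u + v) ^ (posCount (ρ j) + negCount (ρ j)) * (u + v) ^ freeCount (ρ j) := by
      rw [← pow_add, count_add]
    rw [hn]
    have e1 : (u + v) ^ freeCount (ρ j) ≠ 0 := by positivity
    have e2 : (u + v) ^ (posCount (ρ j) + negCount (ρ j)) ≠ 0 := by positivity
    field_simp
  rw [h3, div_le_one (by positivity)]
  exact h1

/-- Main bound: a function `h ≤ 1` that is a nonnegative combination of indicators of subcubes of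
codimension at most `w` has level-one Fourier sum at most `sqrt w * exp (-1/2)`. -/
theorem conical_bound {n w : ℕ} {ι : Type*} [Fintype ι] (h : (Fin n → Bool) → ℝ)
    (hle : ∀ x, h x ≤ 1)
    (ρ : ι → Fin n → Option Bool) (c : ι → ℝ) (hc : ∀ j, 0 ≤ c j) (hw : ∀ j, codim (ρ j) ≤ w)
    (hrep : ∀ x, h x = ∑ j, c j * cubeInd (ρ j) x) :
    ∑ i, fourierOne h i ≤ Real.sqrt w * Real.exp (-(1 / 2)) := by
  rw [sum_fourierOne_rep h ρ c hrep]
  have hm := tilt_mass_le h hle ρ c hrep (Real.exp (1 / Real.sqrt w)) (Real.exp (-(1 / Real.sqrt w)))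
    (Real.exp_pos _) (Real.exp_pos _)
  have hl : 0 ≤ Real.sqrt w * Real.exp (-(1 / 2)) := by positivity
  calc ∑ j, c j * (((posCount (ρ j) : ℝ) - negCount (ρ j)) / 2 ^ (posCount (ρ j) + negCount (ρ j)))
      ≤ ∑ j, c j * ((Real.sqrt w * Real.exp (-(1 / 2))) *
        (Real.exp (1 / Real.sqrt w) ^ posCount (ρ j) * Real.exp (-(1 / Real.sqrt w)) ^ negCount (ρ j) /
        (Real.exp (1 / Real.sqrt w) + Real.exp (-(1 / Real.sqrt w))) ^ (posCount (ρ j) + negCount (ρ j)))) := by
        apply Finset.sum_le_sum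
        intro j _
        apply mul_le_mul_of_nonneg_left _ (hc j)
        apply term_bound
        rw [← codim_eq]
        exact hw j
    _ = (Real.sqrt w * Real.exp (-(1 / 2))) * ∑ j, c j *
        (Real.exp (1 / Real.sqrt w) ^ posCount (ρ j) * Real.exp (-(1 / Real.sqrt w)) ^ negCount (ρ j) /
        (Real.exp (1 / Real.sqrt w) + Real.exp (-(1 / Real.sqrt w))) ^ (posCount (ρ j) + negCount (ρ j))) := by
        rw [Finset.mul_sum]
        apply Finset.sum_congr rfl
        intro j _
        ring
    _ ≤ (Real.sqrt w * Real.exp (-(1 / 2))) * 1 := mul_le_mul_of_nonneg_left hm hl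
    _ = _ := mul_one _

end Vale.Agent.P047
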