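import Mathlib

/-!
# P047: definitions used in the statements

The cube `{-1,1}^n` is modelled as `Fin n → Bool`, the bit `true` standing for `+1`
and `false` for `-1`.
-/

namespace Vale.Agent.P047

open Finset

/-- The sign of a bit: `true ↦ 1`, `false ↦ -1`. -/
def sgn (b : Bool) : ℝ := if b then 1 else -1

/-- The Fourier coefficient `E[f(X) ∏_{i ∈ S} X_i]` for `X` uniform on the cube `{-1,1}^n`. -/
noncomputable def cubeFourier {n : ℕ} (f : (Fin n → Bool) → ℝ) (S : Finset (Fin n)) : ℝ :=
  (∑ x : Fin n → Bool, f x * ∏ i ∈ S, sgn (x i)) / 2 ^ n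

/-- The point `x` lies in the subcube described by the partial assignment `ρ`:
it agrees with `ρ` on every coordinate that `ρ` fixes. -/
def InCube {n : ℕ} (ρ : Fin n → Option Bool) (x : Fin n → Bool) : Prop :=
  ∀ i, ρ i = none ∨ ρ i = some (x i)

/-- Indicator function of the subcube described by the partial assignment `ρ`. -/
def cubeInd {n : ℕ} (ρ : Fin n → Option Bool) (x : Fin n → Bool) : ℝ :=
  if ∀ i, ρ i = none ∨ ρ i = some (x i) then 1 else 0

/-- Codimension of the subcube: the number of coordinates fixed by `ρ`. -/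
def codim {n : ℕ} (ρ : Fin n → Option Bool) : ℕ :=
  (univ.filter (fun i => ρ i ≠ none)).card

end Vale.Agent.P047
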