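import Vale.Agent.P047.Conical

namespace Vale.Agent.P047

open Finset

lemma cubeFourier_singleton {n : ℕ} (f : (Fin n → Bool) → ℝ) (i : Fin n) :
    cubeFourier f {i} = fourierOne f i := by
  simp [cubeFourier, fourierOne]

/-- flipping the coordinates marked by `e` -/
def flip {n : ℕ} (e : Fin n → Bool) (x : Fin n → Bool) : Fin n → Bool :=
  fun i => xor (x i) (e i)

lemma flip_flip {n : ℕ} (e x : Fin n → Bool) : flip e (flip e x) = x := by
  funext i
  simp [flip]

/-- flipping as a permutation of the cube -/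
def flipEquiv {n : ℕ} (e : Fin n → Bool) : (Fin n → Bool) ≃ (Fin n → Bool) where
  toFun := flip e
  invFun := flip e
  left_inv := flip_flip e
  right_inv := flip_flip e

lemma sgn_xor (b e : Bool) : sgn (xor b e) = sgn b * (if e then -1 else 1) := by
  cases b <;> cases e <;> simp [sgn]

lemma fourierOne_flip {n : ℕ} (f : (Fin n → Bool) → ℝ) (e : Fin n → Bool) (i : Fin n) :
    fourierOne (fun x => f (flip e x)) i = (if e i then -1 else 1) * fourierOne f i := by
  unfold fourierOne
  rw [← mul_div_assoc]
  congr 1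
  rw [Finset.mul_sum]
  rw [← Equiv.sum_comp (flipEquiv e)]
  apply Finset.sum_congr rfl
  intro x _
  have : (flipEquiv e) x = flip e x := rfl
  rw [this]
  have h2 : sgn (flip e x i) = sgn (x i) * (if e i then -1 else 1) := sgn_xor _ _
  rw [h2]
  show f (flip e (flip e x)) * _ = _
  rw [flip_flip]
  ring

/-- the flipped partial assignment -/
def flipCube {n : ℕ} (e : Fin n → Bool) (ρ : Fin n → Option Bool) : Fin n → Option Bool :=
  fun i => (ρ i).map (fun b => xor b (e i))

lemma cubeInd_flip {n : ℕ} (e : Fin n → Bool) (ρ : Fin n → Option Bool) (x : Fin n → Bool) :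
    cubeInd ρ (flip e x) = cubeInd (flipCube e ρ) x := by
  unfold cubeInd
  have : (∀ i, ρ i = none ∨ ρ i = some (flip e x i))
      ↔ (∀ i, flipCube e ρ i = none ∨ flipCube e ρ i = some (x i)) := by
    apply forall_congr'
    intro i
    unfold flipCube flip
    rcases h : ρ i with _ | b
    · simp
    · cases b <;> cases (e i) <;> cases (x i) <;> simp
  simp only [this]

lemma codim_flip {n : ℕ} (e : Fin n → Bool) (ρ : Fin n → Option Bool) :
    codim (flipCube e ρ) = codim ρ := by
  unfold codim
  congr 1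
  ext i
  simp [flipCube]

lemma sum_sgn_zero {n : ℕ} (i : Fin n) : ∑ x : Fin n → Bool, sgn (x i) = 0 := by
  have := sum_sgn (fun _ : Fin n => (none : Option Bool)) i
  simpa [cubeInd, epsOf] using this

lemma fourierOne_affine {n : ℕ} (f : (Fin n → Bool) → ℝ) (i : Fin n) :
    fourierOne f i = 2 * fourierOne (fun x => (1 + f x) / 2) i := by
  unfold fourierOne
  rw [← mul_div_assoc]
  congr 1
  rw [Finset.mul_sum]
  have : ∀ x : Fin n → Bool, 2 * ((1 + f x) / 2 * sgn (x i)) = sgn (x i) + f x * sgn (x i) := by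
    intro x; ring
  rw [Finset.sum_congr rfl (fun x _ => this x), Finset.sum_add_distrib, sum_sgn_zero, zero_add]

/-- vanishing of high Fourier coefficients of a subcube indicator -/
lemma sum_cube_chi_zero {n : ℕ} (ρ : Fin n → Option Bool) (S : Finset (Fin n))
    (hS : codim ρ < S.card) :
    ∑ x : Fin n → Bool, cubeInd ρ x * ∏ i ∈ S, sgn (x i) = 0 := by
  classical
  have hex : ∃ i ∈ S, ρ i = none := by
    by_contra hcon
    have hsub : S ⊆ univ.filter (fun i => ρ i ≠ none) := by
      intro i hi
      simp only [Finset.mem_filter, Finset.mem_univ, true_and]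
      intro h0
      exact hcon ⟨i, hi, h0⟩
    have := Finset.card_le_card hsub
    unfold codim at hS
    omega
  obtain ⟨i, hiS, hi⟩ := hex
  have h0 : ∀ x : Fin n → Bool, cubeInd ρ x * ∏ j ∈ S, sgn (x j)
      = cubeInd ρ x * ∏ j, ((fun (j : Fin n) (b : Bool) => if j ∈ S then sgn b else 1) j (x j)) := by
    intro x
    congr 1
    rw [Finset.prod_ite_mem]
    simp
  refine (Finset.sum_congr rfl (fun x _ => h0 x)).trans ?_
  refine (key_sum ρ (fun (j : Fin n) (b : Bool) => if j ∈ S then sgn b else 1)).trans ?_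
  apply Finset.prod_eq_zero (Finset.mem_univ i)
  simp [hi, locFac, hiS, sgn]

lemma sum_chi_zero {n : ℕ} (S : Finset (Fin n)) (hS : 0 < S.card) :
    ∑ x : Fin n → Bool, ∏ i ∈ S, sgn (x i) = 0 := by
  have := sum_cube_chi_zero (fun _ : Fin n => (none : Option Bool)) S (by simpa [codim] using hS)
  simpa [cubeInd] using this

end Vale.Agent.P047
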